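import Crest.Agent.N49.Sw.Df2

/-!
# Row 49 (helper5): the core of the swap (statement)
-/

set_option autoImplicit false

open Matrix MvPolynomial Finset

noncomputable section

namespace Crest.Agent.N49.Swp

open Po Tw Sd Sw

/-- **the core of the swap**: two box inequalities, the alternating sum, the old letters die -/
def SWC : Prop := ∀ s : ℕ, ∃ c : ℕ, ∀ (σ Λ τ C : Type) [DecidableEq σ] [Fintype Λ] [DecidableEq Λ]
  [Fintype τ] [DecidableEq τ] [DecidableEq C] (U : TS σ) (st : U.C → ℕ) (fm : U.C → C)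
  (M n N m : ℕ) (κ0 κ η : ℝ) (col : Λ → σ) (col' : τ → σ) (i : τ → Λ) (E : Finset τ) (x t : τ)
  (Ψ : U.Twd (MR col (full Λ s) (dk fun _ => κ0)))
  (g f0 f1 : (U.Cw (MR col (full Λ s) (dk fun _ => κ0)) → ℤ) → ℂ)
  (G P : MvPolynomial (VV C τ) ℝ), Function.Injective i → (∀ a, col (i a) = col' a) → x ∈ E →
  t ∈ E → t ≠ x → #E ≤ s → col' x = col' t → Fintype.card Λ ≤ n → (n + 2) ^ c ≤ N → 0 < κ →
  (n + 2) ^ c * κ ≤ κ0 → U.Ok → U.Stg st M → U.Adm _ st Ψ → 0 ≤ η →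
  η ≤ 1 / 2 ^ ((m + 3) * 2 ^ (s + 2)) → U.HM st N (κ / 2 ^ s) η → U.HP st N (κ / 2 ^ s) η →
  (∀ y, ‖g y‖ ≤ 1) → (∀ y, ‖f0 y‖ ≤ 1) → (∀ y, ‖f1 y‖ ≤ 1) → Inv U _ (Pi.single (i x) 1) g →
  Inv U _ (Pi.single (i t) 1) f0 → Inv U _ (Pi.single (i x) 1 - Pi.single (i t) 1) f1 →
  P.IsWeightedHomogeneous Prod.snd (wE E) →
  (∀ μ ∈ (G - P).support, Finsupp.weight Prod.snd μ x ≤ 1 ∧
    ∃ a ∈ E, Finsupp.weight Prod.snd μ a = 0) →
  1 / 2 ^ m ≤ ‖(U.tw _ Ψ).Ec fun y => g y * f0 y * f1 y *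
    ee (eval (fun v => ex U _ fm (zc y) (v.1, v.2.mapDomain i)) G)‖ →
  1 / 2 ^ ((m + 3) * 2 ^ (s + 2)) ≤
    bi U (MR col' (W0 s E) (dk fun _ => κ)) fm (P - rlb (Equiv.swap t x) P)

end Crest.Agent.N49.Swp

end
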